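import Vale.Agent.P139Z.ODefs

/-! The boundary layer after the exit time: elementary differential inequalities. -/

open Set Filter Topology Complex
open scoped ComplexConjugate

namespace Vale.Agent.P139Z.ShC

theorem derivs {F : ℝ → ℂ} (hF : ContDiffOn ℝ 2 F (Ioi 0)) {x : ℝ} (hx : 0 < x) :
    HasDerivAt F (deriv F x) x ∧ HasDerivAt (deriv F) (iteratedDeriv 2 F x) x := by
  have h1 : DifferentiableAt ℝ F x :=
    (hF.differentiableOn (by norm_num)).differentiableAt (Ioi_mem_nhds hx)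
  have h2 : ContDiffOn ℝ 1 (deriv F) (Ioi 0) := hF.deriv_of_isOpen isOpen_Ioi (by norm_num)
  have h3 : DifferentiableAt ℝ (deriv F) x :=
    (h2.differentiableOn (by norm_num)).differentiableAt (Ioi_mem_nhds hx)
  refine ⟨h1.hasDerivAt, ?_⟩
  rw [iteratedDeriv_succ, iteratedDeriv_one]
  exact h3.hasDerivAt

theorem le_of_deriv_le {f f' B B' : ℝ → ℝ} {a b : ℝ} (hf : ∀ x ∈ Icc a b, HasDerivAt f (f' x) x)
    (hB : ∀ x ∈ Icc a b, HasDerivAt B (B' x) x) (ha : f a ≤ B a)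
    (bound : ∀ x ∈ Icc a b, f' x ≤ B' x) : ∀ x ∈ Icc a b, f x ≤ B x := fun _ hx =>
  image_le_of_deriv_right_le_deriv_boundary
    (fun x hx => (hf x hx).continuousAt.continuousWithinAt)
    (fun x hx => (hf x (Ico_subset_Icc_self hx)).hasDerivWithinAt) ha
    (fun x hx => (hB x hx).continuousAt.continuousWithinAt)
    (fun x hx => (hB x (Ico_subset_Icc_self hx)).hasDerivWithinAt)
    (fun x hx => bound x (Ico_subset_Icc_self hx)) hx

theorem norm_sub_le_of_deriv {f f' : ℝ → ℂ} {a b C : ℝ}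
    (hf : ∀ x ∈ Icc a b, HasDerivAt f (f' x) x) (bound : ∀ x ∈ Icc a b, ‖f' x‖ ≤ C) :
    ∀ x ∈ Icc a b, ‖f x - f a‖ ≤ C * (x - a) :=
  norm_image_sub_le_of_norm_deriv_le_segment' (fun x hx => (hf x hx).hasDerivWithinAt)
    fun x hx => bound x (Ico_subset_Icc_self hx)

theorem inner_eq (z w : ℂ) : inner ℝ z w = (conj z * w).re := by
  rw [Complex.inner, mul_comm]

theorem norm_coef {x : ℝ} (h0 : 0 ≤ x) (h : x ≤ 11.2) : ‖(24 + I * x : ℂ)‖ ≤ 26.5 := by
  have h1 : ‖(24 + I * x : ℂ)‖ ^ 2 = 24 ^ 2 + x ^ 2 := by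
    rw [← Complex.normSq_eq_norm_sq, Complex.normSq_apply]
    simp
    ring
  refine (pow_le_pow_iff_left₀ (norm_nonneg _) (by norm_num) two_ne_zero).1 ?_
  rw [h1]
  nlinarith

/-- The data of the boundary layer problem. -/
structure Dat (G G1 G2 : ℝ → ℂ) (nn : ℝ → ℝ) (β a T : ℝ) : Prop where
  hT : T ∈ Icc (10.8 : ℝ) 10.9
  hβ : InB β
  a0 : 0 ≤ a
  a1 : a ≤ 0.005
  d1 : ∀ x : ℝ, 0 < x → HasDerivAt G (G1 x) x
  d2 : ∀ x : ℝ, 0 < x → HasDerivAt G1 (G2 x) x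
  eq : ∀ x : ℝ, 0 < x →
    4 * x * G2 x = ((nn x - β : ℝ) - I * a) * G x - (24 + I * x) * G1 x
  n0 : ∀ x, 0 ≤ nn x
  n1 : ∀ x, ‖G x‖ ≤ ‖G T‖ → nn x ≤ 1 / 6
  g0 : ‖G T - 1‖ ≤ 0.0005
  g1 : ‖G T‖ ≤ 1
  g2 : ‖G1 T‖ ≤ 0.0005
  p0 : (conj (G T) * G1 T).re < 0

namespace Dat

variable {G G1 G2 : ℝ → ℂ} {nn : ℝ → ℝ} {β a T : ℝ} (h : Dat G G1 G2 nn β a T)

include h

theorem pos {t x : ℝ} (hx : x ∈ Icc T t) : 0 < x := by
  have := h.hT.1
  have := hx.1
  linarith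

theorem dN {x : ℝ} (hx : 0 < x) :
    HasDerivAt (fun y => ‖G y‖ ^ 2) (2 * (conj (G x) * G1 x).re) x := by
  rw [← inner_eq]
  exact (h.d1 x hx).norm_sq

theorem dP {x : ℝ} (hx : 0 < x) : HasDerivAt (fun y => (conj (G y) * G1 y).re)
    ((conj (G x) * G2 x).re + ‖G1 x‖ ^ 2) x := by
  have := (h.d1 x hx).inner ℝ (h.d2 x hx)
  rw [real_inner_self_eq_norm_sq] at this
  simpa only [inner_eq] using this

/-- The improved bounds. -/
theorem improve {t : ℝ} (ht : t ≤ 11.2)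
    (hs : ∀ x ∈ Icc T t, (conj (G x) * G1 x).re ≤ 0 ∧ ‖G1 x‖ ≤ 0.005) :
    ∀ x ∈ Icc T t, (conj (G x) * G1 x).re ≤ (conj (G T) * G1 T).re - 0.0007 * (x - T) ∧
      ‖G1 x‖ ≤ 0.0049 := by
  have hT := h.hT
  have hβ := h.hβ
  have h1 : ∀ x ∈ Icc T t, ‖G x‖ ≤ ‖G T‖ := fun x hx => by
    have := le_of_deriv_le (f := fun y => ‖G y‖ ^ 2) (B := fun _ => ‖G T‖ ^ 2) (B' := fun _ => 0)
      (fun x hx => h.dN (h.pos hx)) (fun x _ => hasDerivAt_const x _) le_rfl
      (fun x hx => by have := (hs x hx).1; linarith) x hx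
    exact (pow_le_pow_iff_left₀ (norm_nonneg _) (norm_nonneg _) two_ne_zero).1 this
  have h2 : ∀ x ∈ Icc T t, 0.9975 ≤ ‖G x‖ := fun x hx => by
    have a1 := norm_sub_le_of_deriv (fun x hx => h.d1 x (h.pos hx)) (fun x hx => (hs x hx).2) x hx
    have a2 : ‖(1 : ℂ)‖ ≤ ‖G x‖ + ‖G x - G T‖ + ‖G T - 1‖ := by
      calc ‖(1 : ℂ)‖ = ‖G x - (G x - G T) - (G T - 1)‖ := by congr 1; ring
        _ ≤ ‖G x - (G x - G T)‖ + ‖G T - 1‖ := norm_sub_le _ _
        _ ≤ ‖G x‖ + ‖G x - G T‖ + ‖G T - 1‖ := by gcongr; exact norm_sub_le _ _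
    rw [norm_one] at a2
    have := h.g0
    have := hx.2
    have := hT.1
    linarith
  have h3 : ∀ x ∈ Icc T t, ‖G2 x‖ ≤ 0.011 := fun x hx => by
    have hx0 := h.pos hx
    have e := congrArg norm (h.eq x hx0)
    have a1 : ‖(4 * x * G2 x : ℂ)‖ = 4 * x * ‖G2 x‖ := by
      rw [norm_mul, norm_mul, Complex.norm_real, Real.norm_of_nonneg hx0.le]
      norm_num
    have a2 : ‖(((nn x - β : ℝ) : ℂ) - I * a)‖ ≤ 0.34 := by
      refine (norm_sub_le _ _).trans ?_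
      rw [norm_mul, Complex.norm_I, one_mul, Complex.norm_real, Complex.norm_real,
        Real.norm_of_nonneg h.a0, Real.norm_eq_abs]
      have := h.n0 x
      have := h.n1 x (h1 x hx)
      have := h.a1
      have : |nn x - β| ≤ 0.335 := abs_le.2 ⟨by linarith [hβ.2], by linarith [hβ.1]⟩
      linarith
    have a3 := norm_coef hx0.le (hx.2.trans ht)
    have a4 : ‖G x‖ ≤ 1 := (h1 x hx).trans h.g1
    have a5 : 4 * x * ‖G2 x‖ ≤ 0.34 * 1 + 26.5 * 0.005 := by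
      rw [← a1, e]
      refine (norm_sub_le _ _).trans ?_
      rw [norm_mul, norm_mul]
      have := (hs x hx).2
      gcongr
    have := hx.1
    have := hT.1
    nlinarith [norm_nonneg (G2 x)]
  have h4 : ∀ x ∈ Icc T t, ‖G1 x‖ ≤ 0.0049 := fun x hx => by
    have a1 := norm_sub_le_of_deriv (fun x hx => h.d2 x (h.pos hx)) h3 x hx
    have a2 : ‖G1 x‖ ≤ ‖G1 x - G1 T‖ + ‖G1 T‖ := by
      simpa using norm_add_le (G1 x - G1 T) (G1 T)
    have := h.g2
    have := hx.2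
    have := hT.1
    linarith
  have h5 : ∀ x ∈ Icc T t, (conj (G x) * G2 x).re + ‖G1 x‖ ^ 2 ≤ -0.0007 := fun x hx => by
    have hx0 := h.pos hx
    have e : 4 * x * (conj (G x) * G2 x).re =
        (nn x - β) * ‖G x‖ ^ 2 - (conj (G x) * ((24 + I * x) * G1 x)).re := by
      have e1 : ((4 * x : ℝ) : ℂ) * (conj (G x) * G2 x) =
          (((nn x - β : ℝ) : ℂ) - I * a) * ((‖G x‖ ^ 2 : ℝ) : ℂ) -
            conj (G x) * ((24 + I * x) * G1 x) := by
        have e2 : ((‖G x‖ ^ 2 : ℝ) : ℂ) = conj (G x) * G x := by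
          rw [Complex.conj_mul']; push_cast; rfl
        rw [e2]
        push_cast
        have e3 := h.eq x hx0
        push_cast at e3
        linear_combination conj (G x) * e3
      have e4 := congrArg Complex.re e1
      rw [Complex.re_ofReal_mul, Complex.sub_re, Complex.re_mul_ofReal] at e4
      simpa using e4
    have a3 := norm_coef hx0.le (hx.2.trans ht)
    have a4 : ‖G x‖ ≤ 1 := (h1 x hx).trans h.g1
    have a5 : |(conj (G x) * ((24 + I * x) * G1 x)).re| ≤ 1 * (26.5 * 0.005) := by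
      refine (Complex.abs_re_le_norm _).trans ?_
      rw [norm_mul, norm_mul, Complex.norm_conj]
      have := (hs x hx).2
      gcongr
    have a6 : nn x - β ≤ -0.168 := by
      have := h.n1 x (h1 x hx)
      linarith [hβ.1]
    have a7 : 0.995 ≤ ‖G x‖ ^ 2 := by nlinarith [h2 x hx]
    have a8 : (nn x - β) * ‖G x‖ ^ 2 ≤ -0.168 * 0.995 := by nlinarith
    have a9 : 4 * x * (conj (G x) * G2 x).re ≤ -0.0346 := by
      rw [e]
      linarith [(abs_le.1 a5).1]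
    have a10 : ‖G1 x‖ ^ 2 ≤ 0.005 ^ 2 := pow_le_pow_left₀ (norm_nonneg _) (hs x hx).2 2
    have a11 : x ≤ 11.2 := hx.2.trans ht
    have a12 : (conj (G x) * G2 x).re ≤ -0.00075 := by
      by_contra hc
      push Not at hc
      nlinarith
    linarith
  intro x hx
  refine ⟨?_, h4 x hx⟩
  refine le_of_deriv_le (f := fun y => (conj (G y) * G1 y).re)
    (B := fun y => (conj (G T) * G1 T).re - 0.0007 * (y - T)) (B' := fun _ => -0.0007)
    (fun x hx => h.dP (h.pos hx)) (fun x _ => ?_) (by simp) h5 x hx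
  simpa using (((hasDerivAt_id x).sub_const T).const_mul (0.0007 : ℝ)).const_sub
    (conj (G T) * G1 T).re

theorem persist : ∀ x ∈ Icc T 11.2, (conj (G x) * G1 x).re ≤ 0 ∧ ‖G1 x‖ ≤ 0.005 := by
  have hc1 : ∀ x : ℝ, 0 < x → ContinuousAt (fun y => (conj (G y) * G1 y).re) x := fun x hx =>
    (h.dP hx).continuousAt
  have hc2 : ∀ x : ℝ, 0 < x → ContinuousAt (fun y => ‖G1 y‖) x := fun x hx =>
    (h.d2 x hx).continuousAt.norm
  set s : Set ℝ := {x | (conj (G x) * G1 x).re ≤ 0 ∧ ‖G1 x‖ ≤ 0.005} with hs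
  have hcl : IsClosed (s ∩ Icc T 11.2) := by
    have e : s ∩ Icc T 11.2 = (Icc T 11.2 ∩ (fun y => (conj (G y) * G1 y).re) ⁻¹' Iic 0) ∩
        (Icc T 11.2 ∩ (fun y => ‖G1 y‖) ⁻¹' Iic 0.005) := by
      ext x
      simp only [hs, mem_inter_iff, mem_ofPred_eq, mem_preimage, mem_Iic]
      tauto
    rw [e]
    exact (ContinuousOn.preimage_isClosed_of_isClosed
      (fun x hx => (hc1 x (h.pos hx)).continuousWithinAt) isClosed_Icc isClosed_Iic).inter
      (ContinuousOn.preimage_isClosed_of_isClosed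
        (fun x hx => (hc2 x (h.pos hx)).continuousWithinAt) isClosed_Icc isClosed_Iic)
  have h0 : T ∈ s := ⟨h.p0.le, h.g2.trans (by norm_num)⟩
  refine hcl.Icc_subset_of_forall_mem_nhdsGT_of_Icc_subset h0 fun t ht hsub => ?_
  obtain ⟨b1, b2⟩ := h.improve ht.2.le (fun x hx => hsub hx) t ⟨ht.1, le_rfl⟩
  have ht0 : 0 < t := h.pos (t := t) ⟨ht.1, le_rfl⟩
  have c1 : (conj (G t) * G1 t).re < 0 := by
    have := h.p0
    have := ht.1
    nlinarith
  have c2 : ‖G1 t‖ < 0.005 := b2.trans_lt (by norm_num)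
  refine mem_nhdsWithin_of_mem_nhds ?_
  filter_upwards [(hc1 t ht0).eventually (eventually_lt_nhds c1),
    (hc2 t ht0).eventually (eventually_lt_nhds c2)] with y hy1 hy2
  exact ⟨hy1.le, hy2.le⟩

/-- The quadratic drop of the modulus. -/
theorem drop : ∀ x ∈ Icc T 11.2, ‖G x‖ ^ 2 ≤ ‖G T‖ ^ 2 - 0.0007 * (x - T) ^ 2 := by
  refine le_of_deriv_le (f := fun y => ‖G y‖ ^ 2)
    (B := fun y => ‖G T‖ ^ 2 - 0.0007 * (y - T) ^ 2) (B' := fun y => -(0.0007 * (2 * (y - T))))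
    (fun x hx => h.dN (h.pos hx)) (fun x _ => ?_) (by simp) fun x hx => ?_
  · have := ((((hasDerivAt_id x).sub_const T).pow 2).const_mul (0.0007 : ℝ)).const_sub (‖G T‖ ^ 2)
    simpa using this
  · have := (h.improve le_rfl h.persist x hx).1
    have := h.p0
    linarith

end Dat

/-- Gronwall estimate for the free equation with a bounded source. -/
theorem gron {F F1 F2 r : ℝ → ℂ} {β a b σ : ℝ} (ha : 10.8 ≤ a) (hb : b ≤ 11.2) (hβ : InB β)
    (d1 : ∀ x ∈ Icc a b, HasDerivAt F (F1 x) x) (d2 : ∀ x ∈ Icc a b, HasDerivAt F1 (F2 x) x)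
    (e : ∀ x ∈ Icc a b, 4 * x * F2 x = r x - β * F x - (24 + I * x) * F1 x)
    (hr : ∀ x ∈ Icc a b, ‖r x‖ ≤ σ) :
    ∀ x ∈ Icc a b, ‖(F x, F1 x)‖ ≤ 3 * ‖(F a, F1 a)‖ + 2 * σ * (x - a) := by
  intro x hx
  have hσ : 0 ≤ σ := (norm_nonneg _).trans (hr x hx)
  have key := norm_le_gronwallBound_of_norm_deriv_right_le (f := fun y => (F y, F1 y))
    (f' := fun y => (F1 y, F2 y)) (δ := ‖(F a, F1 a)‖) (K := 1) (ε := σ) (a := a) (b := b)
    (fun y hy => ((d1 y hy).prodMk (d2 y hy)).continuousAt.continuousWithinAt)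
    (fun y hy => ((d1 y (Ico_subset_Icc_self hy)).prodMk
      (d2 y (Ico_subset_Icc_self hy))).hasDerivWithinAt) le_rfl (fun y hy' => by
      have hy := Ico_subset_Icc_self hy'
      have hy0 : 0 < y := by linarith [hy.1]
      have b1 : ‖F y‖ ≤ ‖(F y, F1 y)‖ := norm_fst_le (F y, F1 y)
      have b2 : ‖F1 y‖ ≤ ‖(F y, F1 y)‖ := norm_snd_le (F y, F1 y)
      have a1 : ‖(4 * y * F2 y : ℂ)‖ = 4 * y * ‖F2 y‖ := by
        rw [norm_mul, norm_mul, Complex.norm_real, Real.norm_of_nonneg hy0.le]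
        norm_num
      have a3 := norm_coef hy0.le (hy.2.trans hb)
      have a2 : ‖(β : ℂ)‖ ≤ 1 := by
        rw [Complex.norm_real, Real.norm_of_nonneg (by linarith [hβ.1])]
        linarith [hβ.2]
      have a5 : 4 * y * ‖F2 y‖ ≤ σ + 1 * ‖(F y, F1 y)‖ + 26.5 * ‖(F y, F1 y)‖ := by
        rw [← a1, e y hy]
        refine (norm_sub_le _ _).trans (add_le_add ((norm_sub_le _ _).trans ?_) ?_)
        · rw [norm_mul]
          have := hr y hy
          gcongr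
        · rw [norm_mul]
          gcongr
      rw [Prod.norm_mk]
      refine max_le (by linarith) ?_
      have := hy.1
      nlinarith [norm_nonneg (F2 y), norm_nonneg (F y, F1 y)]) x hx
  rw [gronwallBound_of_K_ne_0 one_ne_zero] at key
  have h1 : |x - a| ≤ 1 := abs_le.2 ⟨by linarith [hx.1], by linarith [hx.2]⟩
  have h2 := Real.abs_exp_sub_one_le h1
  rw [abs_of_nonneg (sub_nonneg.2 hx.1)] at h2 h1
  have h3 := (abs_le.1 h2).2
  simp only [one_mul, div_one] at key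
  nlinarith [norm_nonneg (F a, F1 a), mul_le_mul_of_nonneg_left h3 hσ]

end Vale.Agent.P139Z.ShC
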